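import Vale.Agent.P365.T1G.TorD
import Vale.Agent.P365.Open.OneSite

set_option linter.all false

/-!
# P365 T1G: the diffusion quantity on the torus from the quadratic energies `En` of the four angle
functions `phi N i`.
-/

namespace P365L.TL

open MeasureTheory ProbabilityTheory Complex Filter Topology
open P365L.Inf P365O
open scoped ENNReal InnerProductSpace

variable {N : ℕ} [NeZero N]

/-- the complex potential with homogeneous absorption `b` -/
noncomputable def Wh (E b : ℝ) (v : Tor N → ℝ) : Tor N → ℂ := fun x => (v x : ℂ) - (E + b * I)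

theorem Wh_im (E b : ℝ) (v : Tor N → ℝ) (x : Tor N) : (Wh E b v x).im = -b := by
  simp [Wh]

theorem Gt_eq (E b : ℝ) (v : Tor N → ℝ) : Gt N v (E + b * I) = Gr (AT N) (Wh E b v) := rfl

theorem Wh_sh (E b : ℝ) (v : Tor N → ℝ) (a : Tor N) : Wh E b (sh a v) = sh a (Wh E b v) := rfl

/-- the integrand of `DT` seen from the root `a` -/
noncomputable def dt (N : ℕ) [NeZero N] (E b : ℝ) (a : Tor N) (v : Tor N → ℝ) : ℝ :=
  ∑ x : Tor N, b ^ 2 * (nrm (x - a) : ℝ) ^ 2 * ‖Gt N v (E + b * I) x a‖ ^ 2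

theorem dt_nonneg (E b : ℝ) (a : Tor N) (v : Tor N → ℝ) : 0 ≤ dt N E b a v :=
  Finset.sum_nonneg fun x _ => by positivity

theorem dt_sh (E b : ℝ) (a : Tor N) (v : Tor N → ℝ) : dt N E b 0 (sh a v) = dt N E b a v := by
  unfold dt
  rw [← Equiv.sum_comp (Equiv.addRight a) fun x => b ^ 2 * (nrm (x - a) : ℝ) ^ 2 *
    ‖Gt N v (E + b * I) x a‖ ^ 2]
  refine Finset.sum_congr rfl fun x _ => ?_
  rw [Gt_eq, Gt_eq, Wh_sh, Gr_sh (TI_AT N)]
  simp

theorem DT_eq (ν : Measure ℝ) (E b : ℝ) :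
    DT N ν E b = ∫⁻ v, ENNReal.ofReal (dt N E b 0 v) ∂(Measure.pi fun _ : Tor N => ν) := by
  unfold DT dt
  simp only [sub_zero]

theorem DT_eq' (ν : Measure ℝ) [IsProbabilityMeasure ν] (E b : ℝ) (a : Tor N) :
    DT N ν E b = ∫⁻ v, ENNReal.ofReal (dt N E b a v) ∂(Measure.pi fun _ : Tor N => ν) := by
  rw [DT_eq, ← lintegral_sh ν a]
  simp only [dt_sh]

theorem sum_En_ge {E b : ℝ} (v : Tor N → ℝ) :
    4 / Real.pi ^ 2 * ∑ a : Tor N, dt N E b a v ≤ ∑ i, En (AT N) (Wh E b v) (phi N i) := by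
  have h1 : ∑ i, En (AT N) (Wh E b v) (phi N i) =
      ∑ x : Tor N, ∑ y : Tor N, b ^ 2 * KK (AT N) (Wh E b v) x y * dsq x y := by
    unfold En dsq
    rw [Finset.sum_comm]
    refine Finset.sum_congr rfl fun x _ => ?_
    rw [Finset.sum_comm]
    refine Finset.sum_congr rfl fun y _ => ?_
    rw [Finset.mul_sum]
    refine Finset.sum_congr rfl fun i _ => ?_
    rw [Wh_im, Wh_im]
    ring
  rw [h1, Finset.sum_comm, Finset.mul_sum]
  refine Finset.sum_le_sum fun a _ => ?_
  unfold dt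
  rw [Finset.mul_sum]
  refine Finset.sum_le_sum fun x _ => ?_
  have h2 := dsq_ge x a
  have h3 : 0 ≤ b ^ 2 * KK (AT N) (Wh E b v) x a := mul_nonneg (sq_nonneg _) (KK_nonneg _ _)
  calc 4 / Real.pi ^ 2 * (b ^ 2 * (nrm (x - a) : ℝ) ^ 2 * ‖Gt N v (E + b * I) x a‖ ^ 2)
      = b ^ 2 * KK (AT N) (Wh E b v) x a * (4 / Real.pi ^ 2 * (nrm (x - a) : ℝ) ^ 2) := by
        rw [Gt_eq, KK]
        ring
    _ ≤ _ := mul_le_mul_of_nonneg_left h2 h3

theorem measurable_dt (E b : ℝ) (a : Tor N) : Measurable (dt N E b a) := by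
  unfold dt
  refine Finset.measurable_sum _ fun x _ => ?_
  exact ((measurable_Gt N (E + b * I) x a).norm.pow_const 2).const_mul _

theorem card_Tor_nat : Fintype.card (Tor N) = N ^ 2 := by
  rw [Fintype.card_prod, ZMod.card, sq]

/-- **bridge** (lintegral form) -/
theorem DT_le_of_En {ν : Measure ℝ} [IsProbabilityMeasure ν] {E b C : ℝ}
    (h : ∫⁻ v, ENNReal.ofReal (∑ i, En (AT N) (Wh E b v) (phi N i))
      ∂(Measure.pi fun _ : Tor N => ν) ≤ ENNReal.ofReal (C * (N : ℝ) ^ 2)) :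
    DT N ν E b ≤ ENNReal.ofReal (Real.pi ^ 2 / 4 * C) := by
  have hpi := Real.pi_pos
  have hN : (0 : ℝ) < N := by exact_mod_cast Nat.pos_of_ne_zero (NeZero.ne N)
  have h1 : ENNReal.ofReal (4 / Real.pi ^ 2) * ((N : ℝ≥0∞) ^ 2 * DT N ν E b) ≤
      ENNReal.ofReal (C * (N : ℝ) ^ 2) := by
    refine le_trans (le_of_eq ?_) ((lintegral_mono fun v =>
      ENNReal.ofReal_le_ofReal (sum_En_ge (E := E) (b := b) v)).trans h)
    have h2 : ∀ v : Tor N → ℝ, ENNReal.ofReal (4 / Real.pi ^ 2 * ∑ a : Tor N, dt N E b a v) =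
        ENNReal.ofReal (4 / Real.pi ^ 2) * ∑ a : Tor N, ENNReal.ofReal (dt N E b a v) := by
      intro v
      rw [ENNReal.ofReal_mul (by positivity), ENNReal.ofReal_sum_of_nonneg
        fun a _ => dt_nonneg E b a v]
    simp only [h2]
    rw [lintegral_const_mul _ (Finset.measurable_sum _ fun a _ =>
      (measurable_dt E b a).ennreal_ofReal), lintegral_finset_sum _ fun a _ =>
      (measurable_dt E b a).ennreal_ofReal]
    simp only [← DT_eq']
    rw [Finset.sum_const, Finset.card_univ, card_Tor_nat, nsmul_eq_mul]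
    push_cast
    rfl
  have h3 : (N : ℝ≥0∞) ^ 2 = ENNReal.ofReal ((N : ℝ) ^ 2) := by
    rw [ENNReal.ofReal_pow hN.le, ENNReal.ofReal_natCast]
  rw [h3, ← mul_assoc, ← ENNReal.ofReal_mul (by positivity)] at h1
  have hc : 0 < 4 / Real.pi ^ 2 * (N : ℝ) ^ 2 := by positivity
  have h4 : DT N ν E b ≤ ENNReal.ofReal (C * (N : ℝ) ^ 2) /
      ENNReal.ofReal (4 / Real.pi ^ 2 * (N : ℝ) ^ 2) := by
    rw [ENNReal.le_div_iff_mul_le (Or.inl (by positivity)) (Or.inl ENNReal.ofReal_ne_top), mul_comm]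
    exact h1
  rw [← ENNReal.ofReal_div_of_pos hc] at h4
  refine h4.trans (le_of_eq ?_)
  congr 1
  field_simp

/-- the energies are bounded, hence integrable -/
theorem En_bounded {E b : ℝ} (hb : 0 < b) (f : Tor N → ℝ) (v : Tor N → ℝ) :
    |En (AT N) (Wh E b v) f| ≤ ∑ x, ∑ y, (f x - f y) ^ 2 := by
  have h0 : 0 ≤ En (AT N) (Wh E b v) f := by
    unfold En
    refine Finset.sum_nonneg fun x _ => Finset.sum_nonneg fun y _ => ?_
    rw [Wh_im, Wh_im]
    have := KK_nonneg (A := AT N) (W := Wh E b v) x y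
    have hb' : 0 ≤ (- -b) * (- -b) := by rw [neg_neg]; positivity
    positivity
  rw [abs_of_nonneg h0]
  unfold En
  refine Finset.sum_le_sum fun x _ => Finset.sum_le_sum fun y _ => ?_
  rw [Wh_im, Wh_im, neg_neg]
  have h1 : ‖Gr (AT N) (Wh E b v) x y‖ ≤ 1 / b := by
    have := norm_Gr_le (AT_symm N) hb (W := Wh E b v) (fun x => by rw [Wh_im]) x y
    exact this
  have h2 : b * b * KK (AT N) (Wh E b v) x y ≤ 1 := by
    unfold KK
    have h3 := mul_le_mul_of_nonneg_left h1 hb.le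
    rw [mul_one_div_cancel hb.ne'] at h3
    have h4 : 0 ≤ b * ‖Gr (AT N) (Wh E b v) x y‖ := by positivity
    nlinarith
  calc b * b * KK (AT N) (Wh E b v) x y * (f x - f y) ^ 2 ≤ 1 * (f x - f y) ^ 2 :=
        mul_le_mul_of_nonneg_right h2 (sq_nonneg _)
    _ = _ := one_mul _

theorem measurable_En (E b : ℝ) (f : Tor N → ℝ) :
    Measurable fun v : Tor N → ℝ => En (AT N) (Wh E b v) f := by
  unfold En KK
  refine Finset.measurable_sum _ fun x _ => Finset.measurable_sum _ fun y _ => ?_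
  simp only [Wh_im]
  exact (((measurable_Gt N (E + b * I) x y).norm.pow_const 2).const_mul _).mul_const _

/-- **bridge** (real integral form): the form produced by the flow -/
theorem DT_le_of_integral {ν : Measure ℝ} [IsProbabilityMeasure ν] {E b C : ℝ} (hb : 0 < b)
    (h : ∑ i, ∫ v, En (AT N) (Wh E b v) (phi N i) ∂(Measure.pi fun _ : Tor N => ν) ≤
      C * (N : ℝ) ^ 2) :
    DT N ν E b ≤ ENNReal.ofReal (Real.pi ^ 2 / 4 * C) := by
  refine DT_le_of_En ?_
  have hint : ∀ i, Integrable (fun v => En (AT N) (Wh E b v) (phi N i))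
      (Measure.pi fun _ : Tor N => ν) := by
    intro i
    refine Integrable.mono' (integrable_const (∑ x, ∑ y, (phi N i x - phi N i y) ^ 2))
      (measurable_En E b _).aestronglyMeasurable (Eventually.of_forall fun v => ?_)
    rw [Real.norm_eq_abs]
    exact En_bounded hb _ v
  have hnn : ∀ v i, 0 ≤ En (AT N) (Wh E b v) (phi N i) := by
    intro v i
    unfold En
    refine Finset.sum_nonneg fun x _ => Finset.sum_nonneg fun y _ => ?_
    rw [Wh_im, Wh_im]
    have := KK_nonneg (A := AT N) (W := Wh E b v) x y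
    have hb' : 0 ≤ (- -b) * (- -b) := by rw [neg_neg]; positivity
    positivity
  rw [← integral_finset_sum _ fun i _ => hint i] at h
  rw [← ofReal_integral_eq_lintegral_ofReal (integrable_finset_sum _ fun i _ => hint i)
    (Eventually.of_forall fun v => Finset.sum_nonneg fun i _ => hnn v i)]
  exact ENNReal.ofReal_le_ofReal h

end P365L.TL
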