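import Vale.Agent.P365.T1G.TorLim
import Vale.Agent.P365.Torus.Char

set_option linter.all false

/-!
# P365 T1G: law of the torus restriction; Fatou for the diffusion quantity; bridge from the
quadratic energies of the four angle functions.
-/

namespace P365L.TL

open MeasureTheory ProbabilityTheory Complex Filter Topology
open P365L.Inf
open scoped ENNReal InnerProductSpace

/-- diffusion quantity on the torus, homogeneous absorption `b`, energy `E`, single-site law `ν` -/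
noncomputable def DT (N : ℕ) [NeZero N] (ν : Measure ℝ) (E b : ℝ) : ℝ≥0∞ :=
  ∫⁻ v, ENNReal.ofReal (∑ x : Tor N, b ^ 2 * (nrm x : ℝ) ^ 2 * ‖Gt N v (E + b * I) x 0‖ ^ 2)
    ∂(Measure.pi fun _ : Tor N => ν)

/-- diffusion quantity on `ℤ²` -/
noncomputable def DZ {Ω : Type*} [MeasurableSpace Ω] (P : Measure Ω) (V : Ω → Site → ℝ)
    (E b : ℝ) : ℝ≥0∞ :=
  ∫⁻ ω, ∑' y : Site, ENNReal.ofReal
    (b ^ 2 * (sn y : ℝ) ^ 2 * ‖(Res (V ω) (E + b * I) (dl 0)) y‖ ^ 2) ∂P

variable {Ω : Type*} [MeasurableSpace Ω] {P : Measure Ω} [IsProbabilityMeasure P]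
variable {V : Site → Ω → ℝ}

theorem lintegral_tor {N : ℕ} [NeZero N] (hV : ∀ x, Measurable (V x)) (hi : iIndepFun V P)
    {ν : Measure ℝ} [IsProbabilityMeasure ν] (hl : ∀ x, P.map (V x) = ν)
    {F : (Tor N → ℝ) → ℝ≥0∞} (hF : Measurable F) :
    ∫⁻ ω, F (fun x => V (rep x) ω) ∂P = ∫⁻ v, F v ∂(Measure.pi fun _ : Tor N => ν) := by
  set V' : Ω → (Tor N → ℝ) := fun ω x => V (rep x) ω with hV'
  have hVm : Measurable V' := measurable_pi_lambda _ fun y => hV _
  have hi' : iIndepFun (fun x : Tor N => V (rep x)) P := hi.precomp rep_injective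
  have hlaw : P.map V' = Measure.pi fun _ : Tor N => ν := by
    have h1 := (iIndepFun_iff_map_fun_eq_pi_map
      (fun y : Tor N => (hV (rep y)).aemeasurable)).mp hi'
    rw [hV', h1]
    simp only [hl]
  rw [← hlaw, lintegral_map hF hVm]

theorem measurable_Gt (N : ℕ) [NeZero N] (z : ℂ) (x y : Tor N) :
    Measurable fun v : Tor N → ℝ => Gt N v z x y := by
  unfold Gt
  refine measurable_Gr (fun (v : Tor N → ℝ) => fun x => (v x : ℂ) - z) (fun y => ?_) _ _
  exact (Complex.measurable_ofReal.comp (measurable_pi_apply y)).sub_const _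

theorem tor_tendsto {V : Site → ℝ} {z : ℂ} (hz : 0 < z.im) {u : L2}
    (hu : IsResolvent V z (dl 0) u) (M : ℕ → ℕ) [∀ k, NeZero (M k)] (hM : Tendsto M atTop atTop)
    (y : Site) :
    Tendsto (fun k => Gt (M k) (VT (M k) V) z (tor (M k) y) 0) atTop (𝓝 (u y)) := by
  rw [tendsto_iff_norm_sub_tendsto_zero]
  have h1 : Tendsto (fun k => 1 / z.im ^ 2 * (64 * ∑' y, ‖far (M k) (fun y => u y) y‖ ^ 2)) atTop
      (𝓝 0) := by
    have := (((tendsto_far (summable_sq u)).comp hM).const_mul 64).const_mul (1 / z.im ^ 2)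
    simpa using this
  have h2 : Tendsto (fun k => ‖Gt (M k) (VT (M k) V) z (tor (M k) y) 0 - u y‖ ^ 2) atTop
      (𝓝 0) := by
    refine tendsto_of_tendsto_of_tendsto_of_le_of_le' tendsto_const_nhds h1
      (Eventually.of_forall fun k => by positivity) ?_
    filter_upwards [hM.eventually_ge_atTop (2 * sn y + 3)] with k hk
    have h3 := tor_close (N := M k) (by omega) V hz hu (tor (M k) y)
    rwa [rep_tor (by omega)] at h3
  have h3 := h2.sqrt
  simpa only [norm_nonneg, Real.sqrt_sq, Real.sqrt_zero] using h3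

/-- **Fatou**: the diffusion quantity of the plane is bounded by that of large tori. -/
theorem DZ_le (hV : ∀ x, Measurable (V x)) (hi : iIndepFun V P)
    {ν : Measure ℝ} [IsProbabilityMeasure ν] (hl : ∀ x, P.map (V x) = ν) {E b : ℝ} (hb : 0 < b)
    {D : ℝ≥0∞} (h : ∀ N₀ : ℕ, ∃ N, N₀ ≤ N ∧ ∃ _ : NeZero N, DT N ν E b ≤ D) :
    DZ P (fun ω y => V y ω) E b ≤ D := by
  choose M hM0 hM1 hM2 using h
  have hMt : Tendsto M atTop atTop := tendsto_atTop_mono hM0 tendsto_id
  set X : ℕ → Ω → ℝ≥0∞ := fun k ω => ENNReal.ofReal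
    (∑ x : Tor (M k), b ^ 2 * (nrm x : ℝ) ^ 2 *
      ‖Gt (M k) (fun x => V (rep x) ω) (E + b * I) x 0‖ ^ 2) with hX
  have hFm : ∀ k, Measurable fun v : Tor (M k) → ℝ => ENNReal.ofReal
      (∑ x : Tor (M k), b ^ 2 * (nrm x : ℝ) ^ 2 * ‖Gt (M k) v (E + b * I) x 0‖ ^ 2) := by
    intro k
    refine Measurable.ennreal_ofReal (Finset.measurable_sum _ fun x _ => ?_)
    exact ((measurable_Gt (M k) (E + b * I) x 0).norm.pow_const 2).const_mul _
  have hXm : ∀ k, Measurable (X k) := fun k =>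
    (hFm k).comp (measurable_pi_lambda _ fun x => hV (rep x))
  have hXle : ∀ k, ∫⁻ ω, X k ω ∂P ≤ D := by
    intro k
    refine le_trans (le_of_eq ?_) (hM2 k)
    exact lintegral_tor hV hi hl (hFm k)
  have hz : 0 < ((E : ℂ) + b * I).im := by simpa using hb
  have key : ∀ ω, ∑' y : Site, ENNReal.ofReal
      (b ^ 2 * (sn y : ℝ) ^ 2 * ‖(Res (fun y => V y ω) (E + b * I) (dl 0)) y‖ ^ 2) ≤
      liminf (fun k => X k ω) atTop := by
    intro ω
    set u := Res (fun y => V y ω) (E + b * I) (dl 0) with hu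
    have hres : IsResolvent (fun y => V y ω) (E + b * I) (dl 0) u := res_spec _ hz _
    rw [ENNReal.tsum_eq_iSup_sum]
    refine iSup_le fun F => ?_
    -- a common bound of the norms on `F`
    obtain ⟨R, hR⟩ : ∃ R : ℕ, ∀ y ∈ F, sn y ≤ R := ⟨F.sup sn, fun y hy => Finset.le_sup hy⟩
    rw [← ENNReal.ofReal_sum_of_nonneg fun y _ => by positivity]
    have ht : Tendsto (fun k => ENNReal.ofReal (∑ y ∈ F, b ^ 2 * (sn y : ℝ) ^ 2 *
        ‖Gt (M k) (VT (M k) fun y => V y ω) (E + b * I) (tor (M k) y) 0‖ ^ 2)) atTop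
        (𝓝 (ENNReal.ofReal (∑ y ∈ F, b ^ 2 * (sn y : ℝ) ^ 2 * ‖u y‖ ^ 2))) := by
      refine ENNReal.tendsto_ofReal (tendsto_finset_sum _ fun y _ => ?_)
      exact ((tor_tendsto hz hres M hMt y).norm.pow 2).const_mul _
    rw [← ht.liminf_eq]
    refine liminf_le_liminf ?_
    filter_upwards [hMt.eventually_ge_atTop (2 * R + 1)] with k hk
    refine ENNReal.ofReal_le_ofReal ?_
    have hinj : Set.InjOn (tor (M k)) (F : Set Site) := by
      intro y hy y' hy' he
      have h1 := congrArg rep he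
      rw [rep_tor (by have := hR y hy; omega), rep_tor (by have := hR y' hy'; omega)] at h1
      exact h1
    have h2 : ∀ y ∈ F, (sn y : ℝ) = (nrm (tor (M k) y) : ℝ) := by
      intro y hy
      rw [nrm_eq_sn, rep_tor (by have := hR y hy; omega)]
    calc ∑ y ∈ F, b ^ 2 * (sn y : ℝ) ^ 2 *
          ‖Gt (M k) (VT (M k) fun y => V y ω) (E + b * I) (tor (M k) y) 0‖ ^ 2
        = ∑ y ∈ F, b ^ 2 * (nrm (tor (M k) y) : ℝ) ^ 2 *
          ‖Gt (M k) (fun x => V (rep x) ω) (E + b * I) (tor (M k) y) 0‖ ^ 2 := by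
          refine Finset.sum_congr rfl fun y hy => ?_
          rw [h2 y hy]
          rfl
      _ = ∑ x ∈ F.image (tor (M k)), b ^ 2 * (nrm x : ℝ) ^ 2 *
          ‖Gt (M k) (fun x => V (rep x) ω) (E + b * I) x 0‖ ^ 2 := by
          rw [Finset.sum_image hinj]
      _ ≤ _ := Finset.sum_le_sum_of_subset_of_nonneg (Finset.subset_univ _)
          fun x _ _ => by positivity
  calc DZ P (fun ω y => V y ω) E b ≤ ∫⁻ ω, liminf (fun k => X k ω) atTop ∂P :=
        lintegral_mono key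
    _ ≤ liminf (fun k => ∫⁻ ω, X k ω ∂P) atTop := lintegral_liminf_le hXm
    _ ≤ D := by
        refine (liminf_le_liminf (Eventually.of_forall hXle)).trans ?_
        simp

end P365L.TL
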