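import Vale.Agent.P365.T1G.TorE
import Vale.Agent.P365.E913.All
import Mathlib.Probability.Independence.InfinitePi

set_option linter.all false

/-!
# P365 T1G: from the output of the flow on the tori to the hypothesis of the end, and from the
canonical product measure to an arbitrary iid family.
-/

namespace P365L.TL

open MeasureTheory ProbabilityTheory Complex Filter Topology
open P365L.Inf P365O P365L.E913
open scoped ENNReal InnerProductSpace

/-- what the flow (chapters A-E) delivers on the tori: for every energy `E` there is `C` such that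
for infinitely many `n` and arbitrarily large tori the total energy of the four angle functions at
homogeneous absorption `2^{-n}` is at most `C` per site -/
def FlowOut (ν : Measure ℝ) : Prop :=
  ∀ E : ℝ, ∃ C : ℝ, ∀ n₀ : ℕ, ∃ n, n₀ ≤ n ∧ ∀ N₀ : ℕ, ∃ N, N₀ ≤ N ∧ ∃ _ : NeZero N,
    ∑ i : Fin 4, ∫ v, En (AT N) (Wh E ((1 / 2 : ℝ) ^ n) v) (phi N i)
      ∂(Measure.pi fun _ : Tor N => ν) ≤ C * (N : ℝ) ^ 2

/-- the hypothesis of the end (helper913), for the canonical product measure -/
def EndHyp (ν : Measure ℝ) [IsProbabilityMeasure ν] : Prop :=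
  ∀ E : ℝ, ∃ D : ℝ, ∃ᶠ n : ℕ in atTop,
    ∫⁻ V, ∑' y : Site, ENNReal.ofReal (((1 / 2 : ℝ) ^ n) ^ 2 * (sn y : ℝ) ^ 2 *
      ‖gg V (zz E n) 0 y‖ ^ 2) ∂(Measure.infinitePi fun _ : Site => ν) ≤ ENNReal.ofReal D

variable {ν : Measure ℝ} [IsProbabilityMeasure ν]

theorem iIndep_coord : iIndepFun (fun (x : Site) (V : Site → ℝ) => V x)
    (Measure.infinitePi fun _ : Site => ν) :=
  iIndepFun_infinitePi (P := fun _ : Site => ν) (X := fun _ => id) fun _ => measurable_id

theorem endHyp_of_flow (h : FlowOut ν) : EndHyp ν := by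
  intro E
  obtain ⟨C, hC⟩ := h E
  refine ⟨Real.pi ^ 2 / 4 * C, frequently_atTop.2 fun n₀ => ?_⟩
  obtain ⟨n, hn, hN⟩ := hC n₀
  refine ⟨n, hn, ?_⟩
  have hb : (0 : ℝ) < (1 / 2 : ℝ) ^ n := by positivity
  have h1 := DZ_le (P := Measure.infinitePi fun _ : Site => ν)
    (V := fun (x : Site) (V : Site → ℝ) => V x) (ν := ν) (E := E) (b := (1 / 2 : ℝ) ^ n)
    (D := ENNReal.ofReal (Real.pi ^ 2 / 4 * C))
    (fun x => measurable_pi_apply x) iIndep_coord
    (fun x => Measure.infinitePi_map_eval (fun _ : Site => ν) x) hb ?_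
  · refine le_trans (le_of_eq ?_) h1
    unfold DZ
    refine lintegral_congr fun V => tsum_congr fun y => ?_
    rw [gg_symm (zz_pos E n)]
    rfl
  · intro N₀
    obtain ⟨N, hN0, hNz, hle⟩ := hN N₀
    exact ⟨N, hN0, hNz, DT_le_of_integral hb hle⟩

/-- law of `lam * w` for `w` uniform on `[-1,1]` -/
noncomputable def nuL (lam : ℝ) : Measure ℝ :=
  (cond volume (Set.Icc (-1 : ℝ) 1)).map fun t => lam * t

instance isProbabilityMeasure_cond :
    IsProbabilityMeasure (cond volume (Set.Icc (-1 : ℝ) 1)) :=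
  isProbabilityMeasure_unif

instance isProbabilityMeasure_nuL (lam : ℝ) : IsProbabilityMeasure (nuL lam) :=
  Measure.isProbabilityMeasure_map (measurable_const_mul lam).aemeasurable

theorem map_eq_infinitePi {Ω : Type*} [MeasurableSpace Ω] {P : Measure Ω} [IsProbabilityMeasure P]
    {w : Site → Ω → ℝ} (hw : ∀ x, Measurable (w x)) (hi : iIndepFun w P)
    (hl : ∀ x, P.map (w x) = cond volume (Set.Icc (-1) 1)) (lam : ℝ) :
    P.map (fun ω x => lam * w x ω) = Measure.infinitePi fun _ : Site => nuL lam := by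
  have h1 : iIndepFun (fun x ω => lam * w x ω) P :=
    hi.comp (fun _ t => lam * t) fun _ => measurable_const_mul lam
  rw [h1.map_fun_eq_infinitePi_map fun x => (hw x).const_mul lam]
  congr 1
  funext x
  rw [nuL, ← hl x, Measure.map_map (measurable_const_mul lam) (hw x)]
  rfl

/-- **transfer** of an almost sure statement from the canonical product measure -/
theorem ae_of_canonical {Ω : Type*} [MeasurableSpace Ω] {P : Measure Ω} [IsProbabilityMeasure P]
    {w : Site → Ω → ℝ} (hw : ∀ x, Measurable (w x)) (hi : iIndepFun w P)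
    (hl : ∀ x, P.map (w x) = cond volume (Set.Icc (-1) 1)) (lam : ℝ) {p : (Site → ℝ) → Prop}
    (h : ∀ᵐ V ∂(Measure.infinitePi fun _ : Site => nuL lam), p V) :
    ∀ᵐ ω ∂P, p fun x => lam * w x ω := by
  rw [← map_eq_infinitePi hw hi hl lam] at h
  exact ae_of_ae_map (measurable_pi_lambda _ fun x => (hw x).const_mul lam).aemeasurable h

theorem nuL_le {lam : ℝ} (hl : 0 < lam) : nuL lam ≤ ENNReal.ofReal (1 / (2 * lam)) • volume := by
  refine Measure.le_iff.2 fun B hB => ?_
  have hm := measurable_const_mul (M := ℝ) lam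
  rw [nuL, Measure.map_apply hm hB, cond_apply measurableSet_Icc, Measure.smul_apply, smul_eq_mul]
  have h1 : volume (Set.Icc (-1 : ℝ) 1) = ENNReal.ofReal 2 := by
    rw [Real.volume_Icc]; norm_num
  rw [h1]
  have h2 : volume ((fun t => lam * t) ⁻¹' B) = ENNReal.ofReal (1 / lam) * volume B := by
    rw [Real.volume_preimage_mul_left hl.ne', abs_of_pos (inv_pos.2 hl), one_div]
  calc (ENNReal.ofReal 2)⁻¹ * volume (Set.Icc (-1 : ℝ) 1 ∩ (fun t => lam * t) ⁻¹' B)
      ≤ (ENNReal.ofReal 2)⁻¹ * volume ((fun t => lam * t) ⁻¹' B) := by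
        gcongr
        exact Set.inter_subset_right
    _ = ENNReal.ofReal (1 / (2 * lam)) * volume B := by
        rw [h2, ← mul_assoc, ← ENNReal.ofReal_inv_of_pos (by norm_num : (0 : ℝ) < 2),
          ← ENNReal.ofReal_mul (by norm_num)]
        congr 2
        field_simp

theorem nuL_supp {lam : ℝ} (hl : 0 < lam) : nuL lam (Set.Icc (-lam) lam)ᶜ = 0 := by
  have hm := measurable_const_mul (M := ℝ) lam
  rw [nuL, Measure.map_apply hm measurableSet_Icc.compl, cond_apply measurableSet_Icc]
  have h1 : Set.Icc (-1 : ℝ) 1 ∩ (fun t => lam * t) ⁻¹' (Set.Icc (-lam) lam)ᶜ = ∅ := by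
    ext t
    constructor
    · rintro ⟨⟨h1, h2⟩, h3⟩
      exact h3 ⟨by nlinarith, by nlinarith⟩
    · intro h
      exact h.elim
  rw [h1]
  simp

end P365L.TL
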