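import Vale.Agent.P365.T1G.Fin
import Vale.Agent.P365.E913.NoAC

set_option linter.all false

/-!
# P365 T1G: no absolutely continuous spectrum from the output of the flow on the tori; only the
energies `|E| < 4 + L` matter.
-/

namespace P365L.TL

open MeasureTheory ProbabilityTheory Complex Filter Topology
open P365L.Inf P365O
open scoped ENNReal InnerProductSpace

/-- outside of the spectrum the resolvent is bounded uniformly in the absorption -/
theorem gap_bound {V : Site → ℝ} {L E : ℝ} (hV : ∀ x, |V x| ≤ L) (hE : 4 + L < |E|) :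
    ∃ C : ℝ, 0 ≤ C ∧ ∀ (z : ℂ), z.re = E → ∀ (ψ u : L2), IsResolvent V z ψ u →
      ‖u‖ ^ 2 ≤ C * ‖ψ‖ ^ 2 := by
  set g : ℝ := |E| - L with hg
  have hg4 : 4 < g := by linarith
  set δ : ℝ := (g ^ 2 - 16) / 32 with hδ
  have hδ0 : 0 < δ := by
    rw [hδ]
    have : 16 < g ^ 2 := by nlinarith
    linarith
  set a : ℝ := g ^ 2 - (1 + δ) * 16 with ha
  have ha0 : 0 < a := by
    rw [ha, hδ]
    nlinarith
  refine ⟨(1 + 1 / δ) / a, by positivity, ?_⟩
  intro z hz ψ u hu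
  have hpt : ∀ x : Site, g ^ 2 * ‖u x‖ ^ 2 ≤
      (1 + 1 / δ) * ‖ψ x‖ ^ 2 + (1 + δ) * ‖hop (fun y => u y) x‖ ^ 2 := by
    intro x
    have h1 : ((V x : ℂ) - z) * u x = ψ x - hop (fun y => u y) x := by
      have := hu x
      linear_combination this
    have h2 : g ≤ ‖(V x : ℂ) - z‖ := by
      have h3 : |((V x : ℂ) - z).re| ≤ ‖(V x : ℂ) - z‖ := Complex.abs_re_le_norm _
      rw [Complex.sub_re, Complex.ofReal_re, hz] at h3
      have h4 := hV x
      have h5 : |E| ≤ |V x - E| + |V x| := by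
        have := abs_sub_abs_le_abs_sub E (V x)
        rw [abs_sub_comm] at this
        linarith
      linarith
    have h3 : g * ‖u x‖ ≤ ‖ψ x‖ + ‖hop (fun y => u y) x‖ := by
      calc g * ‖u x‖ ≤ ‖(V x : ℂ) - z‖ * ‖u x‖ := by gcongr
        _ = ‖ψ x - hop (fun y => u y) x‖ := by rw [← norm_mul, h1]
        _ ≤ _ := norm_sub_le _ _
    have h4 : (g * ‖u x‖) ^ 2 ≤ (‖ψ x‖ + ‖hop (fun y => u y) x‖) ^ 2 :=
      pow_le_pow_left₀ (by positivity) h3 2
    have h5 : (‖ψ x‖ + ‖hop (fun y => u y) x‖) ^ 2 ≤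
        (1 + 1 / δ) * ‖ψ x‖ ^ 2 + (1 + δ) * ‖hop (fun y => u y) x‖ ^ 2 := by
      generalize ‖ψ x‖ = p
      generalize ‖hop (fun y => u y) x‖ = q
      have h6 : 0 ≤ (p / δ - q) ^ 2 * δ := by positivity
      have h7 : (p / δ - q) ^ 2 * δ = 1 / δ * p ^ 2 - 2 * (p * q) + δ * q ^ 2 := by
        field_simp
        ring
      nlinarith
    calc g ^ 2 * ‖u x‖ ^ 2 = (g * ‖u x‖) ^ 2 := by ring
      _ ≤ _ := h4.trans h5
  have hsum : ∀ F : Finset Site, ∑ x ∈ F, ‖u x‖ ^ 2 ≤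
      ((1 + 1 / δ) * ‖ψ‖ ^ 2 + (1 + δ) * (16 * ‖u‖ ^ 2)) / g ^ 2 := by
    intro F
    rw [le_div_iff₀ (by positivity)]
    calc (∑ x ∈ F, ‖u x‖ ^ 2) * g ^ 2 = ∑ x ∈ F, g ^ 2 * ‖u x‖ ^ 2 := by
          rw [Finset.sum_mul]
          exact Finset.sum_congr rfl fun x _ => by ring
      _ ≤ ∑ x ∈ F, ((1 + 1 / δ) * ‖ψ x‖ ^ 2 + (1 + δ) * ‖hop (fun y => u y) x‖ ^ 2) :=
          Finset.sum_le_sum fun x _ => hpt x
      _ = (1 + 1 / δ) * ∑ x ∈ F, ‖ψ x‖ ^ 2 + (1 + δ) * ∑ x ∈ F, ‖hop (fun y => u y) x‖ ^ 2 := by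
          rw [Finset.sum_add_distrib, Finset.mul_sum, Finset.mul_sum]
      _ ≤ _ := by
          refine add_le_add (mul_le_mul_of_nonneg_left (sum_sq_le ψ F) (by positivity))
            (mul_le_mul_of_nonneg_left ?_ (by positivity))
          exact sum_hop_sq (w := fun y => u y) (fun F => sum_sq_le u F) F
  have h1 : ‖u‖ ^ 2 ≤ ((1 + 1 / δ) * ‖ψ‖ ^ 2 + (1 + δ) * (16 * ‖u‖ ^ 2)) / g ^ 2 := by
    rw [norm_sq_L2]
    have := (summable_sq u).tsum_le_of_sum_le hsum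
    rw [norm_sq_L2 u] at this
    exact this
  rw [le_div_iff₀ (by positivity)] at h1
  have h2 : ‖u‖ ^ 2 * a ≤ (1 + 1 / δ) * ‖ψ‖ ^ 2 := by
    rw [ha]
    nlinarith
  rw [div_mul_eq_mul_div, le_div_iff₀ ha0]
  exact h2

theorem im_tendsto_outside {V : Site → ℝ} {L E : ℝ} (hV : ∀ x, |V x| ≤ L) (hE : 4 + L < |E|)
    (x : Site) : Tendsto (fun n => (E913.gg V (E913.zz E n) x x).im) atTop (𝓝 0) := by
  obtain ⟨C, hC0, hC⟩ := gap_bound hV hE
  have h1 : ∀ n, (E913.gg V (E913.zz E n) x x).im ≤ (1 / 2 : ℝ) ^ n * (C * ‖dl x‖ ^ 2) := by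
    intro n
    have h2 := res_im V (E913.zz_pos E n) x
    have h3 : (E913.gg V (E913.zz E n) x x).im = (E913.zz E n).im *
        ‖Res V (E913.zz E n) (dl x)‖ ^ 2 := h2.symm
    rw [h3, E913.zz_im]
    refine mul_le_mul_of_nonneg_left ?_ (by positivity)
    exact hC _ (E913.zz_re E n) _ _ (res_spec V (E913.zz_pos E n) _)
  have h2 : Tendsto (fun n : ℕ => (1 / 2 : ℝ) ^ n * (C * ‖dl x‖ ^ 2)) atTop (𝓝 0) := by
    have := (tendsto_pow_atTop_nhds_zero_of_lt_one (show (0 : ℝ) ≤ 1 / 2 by norm_num)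
      (show (1 / 2 : ℝ) < 1 by norm_num)).mul_const (C * ‖dl x‖ ^ 2)
    rwa [zero_mul] at this
  exact squeeze_zero (fun n => (E913.gg_im_pos (E913.zz_pos E n) x).le) h1 h2

/-- the end, with the hypothesis only for `|E| < 4 + L` -/
theorem noAC_in {K L : ℝ} {P : Measure (Site → ℝ)} [IsProbabilityMeasure P] {ν : Measure ℝ}
    [IsProbabilityMeasure ν] (hP : E913.Law P ν K L)
    (hD : ∀ E : ℝ, |E| < 4 + L → ∃ D : ℝ, ∃ᶠ n : ℕ in atTop,
      DZ P (fun V : Site → ℝ => V) E ((1 / 2) ^ n) ≤ ENNReal.ofReal D) :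
    ∀ᵐ V ∂P, ∀ (ψ : L2) (μ : Measure ℝ), IsSpectralMeasure V ψ μ → μ ⟂ₘ (volume : Measure ℝ) := by
  have hconv := E913.conv_ae_prod' P
  have hu := E913.uniq_swap (P := P) (ν := ν) (K := K) (L := L) hP
    (fun V _ x y hxy => E913.uniqG' V x y hxy)
  have hne : ∀ᵐ E : ℝ, |E| ≠ 4 + L := by
    have h1 : (volume : Measure ℝ) ({4 + L, -(4 + L)} : Set ℝ) = 0 :=
      (Set.toFinite _).measure_zero _
    refine measure_mono_null ?_ h1
    intro E hE
    have hE' : |E| = 4 + L := not_not.1 hE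
    rcases (abs_eq (by linarith [hP.L0])).1 hE' with h | h
    · exact Or.inl h
    · exact Or.inr h
  have h1 : ∀ᵐ E : ℝ, ∀ᵐ V ∂P, ∀ x,
      Tendsto (fun n => (E913.gg V (E913.zz E n) x x).im) atTop (𝓝 0) := by
    filter_upwards [hconv, hu, hne] with E c1 c2 c3
    rcases lt_or_gt_of_ne c3 with c4 | c4
    · have hall := E913.all_or_none hP c1 c2
      have hnull := E913.act_null hP c1 (fun c hc => E913.partA hP c1 hall hc)
        (fun h => E913.partC0 c1 h) (hD E c4)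
      have hnull' : ∀ᵐ V ∂P, V ∉ E913.Act E := measure_eq_zero_iff_ae_notMem.1 hnull
      filter_upwards [c1, hall, hnull'] with V d1 d2 d3 x
      refine E913.tendsto_zero_of_lf d1 ?_
      by_contra hx
      have hx' : 0 < E913.lf E x V := pos_iff_ne_zero.2 hx
      exact d3 fun y => (d2 y).2 ((d2 x).1 hx')
    · filter_upwards [hP.bdd] with V hV x
      exact im_tendsto_outside hV c4 x
  have h2 : ∀ x : Site, ∀ᵐ V ∂P, ∀ᵐ E : ℝ,
      Tendsto (fun n => (E913.gg V (E913.zz E n) x x).im) atTop (𝓝 0) := by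
    intro x
    have hm : MeasurableSet {p : (Site → ℝ) × ℝ |
        Tendsto (fun n => (E913.gg p.1 (E913.zz p.2 n) x x).im) atTop (𝓝 0)} :=
      measurableSet_tendsto (𝓝 0) fun n =>
        Complex.measurable_im.comp (E913.measurable_gg_prod n x x)
    refine (Measure.ae_ae_comm (p := fun V E =>
      Tendsto (fun n => (E913.gg V (E913.zz E n) x x).im) atTop (𝓝 0)) hm).2 ?_
    filter_upwards [h1] with E hE
    filter_upwards [hE] with V hV
    exact hV x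
  have h3 : ∀ᵐ V ∂P, ∀ x : Site, ∀ᵐ E : ℝ,
      Tendsto (fun n => (E913.gg V (E913.zz E n) x x).im) atTop (𝓝 0) := ae_all_iff.2 h2
  filter_upwards [h3] with V hV ψ μ hμ
  refine singular_of_sites V (fun n => (1 / 2 : ℝ) ^ n) (fun n => by positivity)
    (tendsto_pow_atTop_nhds_zero_of_lt_one (by norm_num) (by norm_num)) (fun x => ?_) ψ μ hμ
  filter_upwards [hV x] with E hE u hu
  refine hE.congr fun n => ?_
  have hz : Res V (E913.zz E n) (dl x) = u n := res_unique (E913.zz_pos E n) (hu n)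
  rw [← hz]
  rfl

/-- what the flow (chapters A-E) delivers on the tori: for every energy `|E| < 4 + L` there is `C`
such that for infinitely many `n` and arbitrarily large tori the total energy of the four angle
functions at homogeneous absorption `2^{-n}` is at most `C` per site -/
def FlowIn (ν : Measure ℝ) (L : ℝ) : Prop :=
  ∀ E : ℝ, |E| < 4 + L → ∃ C : ℝ, ∀ n₀ : ℕ, ∃ n, n₀ ≤ n ∧ ∀ N₀ : ℕ, ∃ N, N₀ ≤ N ∧
    ∃ _ : NeZero N, ∑ i : Fin 4, ∫ v, En (AT N) (Wh E ((1 / 2 : ℝ) ^ n) v) (phi N i)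
      ∂(Measure.pi fun _ : Tor N => ν) ≤ C * (N : ℝ) ^ 2

/-- the hypothesis of the end in terms of `DZ` -/
theorem DZ_of_flow {ν : Measure ℝ} [IsProbabilityMeasure ν] {L : ℝ}
    (h : FlowIn ν L) (E : ℝ) (hE : |E| < 4 + L) :
    ∃ D : ℝ, ∃ᶠ n : ℕ in atTop,
      DZ (Measure.infinitePi fun _ : Site => ν) (fun V : Site → ℝ => V) E ((1 / 2) ^ n) ≤
        ENNReal.ofReal D := by
  obtain ⟨C, hC⟩ := h E hE
  refine ⟨Real.pi ^ 2 / 4 * C, frequently_atTop.2 fun n₀ => ?_⟩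
  obtain ⟨n, hn, hN⟩ := hC n₀
  refine ⟨n, hn, ?_⟩
  have hb : (0 : ℝ) < (1 / 2 : ℝ) ^ n := by positivity
  have h1 := DZ_le (P := Measure.infinitePi fun _ : Site => ν)
    (V := fun (x : Site) (V : Site → ℝ) => V x) (ν := ν) (E := E) (b := (1 / 2 : ℝ) ^ n)
    (D := ENNReal.ofReal (Real.pi ^ 2 / 4 * C))
    (fun x => measurable_pi_apply x) iIndep_coord
    (fun x => Measure.infinitePi_map_eval (fun _ : Site => ν) x) hb
    (fun N₀ => by
      obtain ⟨N, hN0, hNz, hle⟩ := hN N₀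
      exact ⟨N, hN0, hNz, DT_le_of_integral hb hle⟩)
  exact h1

theorem nuL_bdd {lam : ℝ} (hl : 0 < lam) : ∀ᵐ t ∂(nuL lam), |t| ≤ lam := by
  have h := nuL_supp hl
  rw [ae_iff]
  refine measure_mono_null ?_ h
  intro t ht hh
  exact ht (abs_le.2 hh)

/-- **T1 from the flow**: if for the law of `lam * uniform[-1,1]` the flow delivers bounded
energies on the tori for `|E| < 4 + lam`, then almost surely there is no absolutely continuous
spectrum. -/
theorem noAC_of_flow {lam : ℝ} (hl : 0 < lam) (h : FlowIn (nuL lam) lam)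
    {Ω : Type*} [MeasurableSpace Ω] {P : Measure Ω} [IsProbabilityMeasure P]
    {w : Site → Ω → ℝ} (hw : ∀ x, Measurable (w x)) (hi : iIndepFun w P)
    (hlw : ∀ x, P.map (w x) = cond volume (Set.Icc (-1) 1)) :
    ∀ᵐ ω ∂P, ∀ (ψ : L2) (μ : Measure ℝ),
      IsSpectralMeasure (fun x => lam * w x ω) ψ μ → μ ⟂ₘ (volume : Measure ℝ) := by
  refine ae_of_canonical hw hi hlw lam (p := fun V => ∀ (ψ : L2) (μ : Measure ℝ),
      IsSpectralMeasure V ψ μ → μ ⟂ₘ (volume : Measure ℝ)) ?_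
  exact noAC_in (E913.law_PP (K := 1 / (2 * lam)) (by positivity) (nuL_le hl) hl.le (nuL_bdd hl))
    fun E hE => DZ_of_flow h E hE

/-- **general form**: iid potentials with bounded density and bounded support -/
theorem noAC_general {K L : ℝ} {ν : Measure ℝ} [IsProbabilityMeasure ν] (hK : 0 < K)
    (hν : ν ≤ ENNReal.ofReal K • (volume : Measure ℝ)) (hL0 : 0 ≤ L) (hL : ∀ᵐ t ∂ν, |t| ≤ L)
    (h : FlowIn ν L) {Ω : Type*} [MeasurableSpace Ω] {P : Measure Ω} [IsProbabilityMeasure P]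
    {X : Site → Ω → ℝ} (hm : ∀ x, Measurable (X x)) (hi : iIndepFun X P)
    (hl : ∀ x, P.map (X x) = ν) :
    ∀ᵐ ω ∂P, ∀ (ψ : L2) (μ : Measure ℝ), IsSpectralMeasure (fun x => X x ω) ψ μ →
      μ ⟂ₘ (volume : Measure ℝ) := by
  have h1 := noAC_in (E913.law_PP hK hν hL0 hL) fun E hE => DZ_of_flow h E hE
  rw [← E913.map_PP hm hi hl] at h1
  exact ae_of_ae_map (measurable_pi_lambda _ hm).aemeasurable h1

end P365L.TL
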