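import Vale.Agent.P365.Inf.Main
import Vale.Agent.P365.Torus.Base
import Mathlib.Analysis.Normed.Group.Tannery

set_option linter.all false

/-!
# P365 T1G: the torus resolvent converges to the resolvent on `ℤ²`; Fatou for the diffusion
quantity.
-/

namespace P365L.TL

open MeasureTheory ProbabilityTheory Complex Filter Topology
open scoped ENNReal InnerProductSpace

/-- representative of a torus site in the plane -/
def rep {N : ℕ} (x : Tor N) : Site := (x.1.valMinAbs, x.2.valMinAbs)

/-- the sup norm in the plane -/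
def sn (y : Site) : ℕ := max y.1.natAbs y.2.natAbs

theorem nrm_eq_sn {N : ℕ} (x : Tor N) : nrm x = sn (rep x) := rfl

theorem tor_rep {N : ℕ} (x : Tor N) : tor N (rep x) = x := by
  unfold tor rep
  exact Prod.ext (ZMod.coe_valMinAbs _) (ZMod.coe_valMinAbs _)

theorem rep_injective {N : ℕ} : Function.Injective (rep (N := N)) := by
  intro x y h
  rw [← tor_rep x, ← tor_rep y, h]

theorem tor_add {N : ℕ} (p q : Site) : tor N (p + q) = tor N p + tor N q := by
  unfold tor
  ext <;> simp

theorem sn_sub_le (p q : Site) : sn (p - q) ≤ sn p + sn q := by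
  unfold sn
  simp only [Prod.fst_sub, Prod.snd_sub]
  omega

variable {N : ℕ} [NeZero N]

theorem rep_tor {y : Site} (h : 2 * sn y + 1 ≤ N) : rep (tor N y) = y := by
  unfold sn at h
  unfold rep tor
  refine Prod.ext ?_ ?_
  · exact valMinAbs_intCast (by omega)
  · exact valMinAbs_intCast (by omega)

theorem rep_add_cases (x : Tor N) {a : Site} (ha : sn a ≤ 1) :
    rep (x + tor N a) = rep x + a ∨
      (N / 2 ≤ sn (rep x + a) + 1 ∧ N / 2 ≤ sn (rep (x + tor N a)) + 1) := by
  by_cases h : rep (x + tor N a) = rep x + a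
  · exact Or.inl h
  right
  have h1 : tor N (rep x + a) = x + tor N a := by rw [tor_add, tor_rep]
  constructor
  · by_contra hc
    apply h
    rw [← h1]
    exact rep_tor (by omega)
  · by_contra hc
    apply h
    set y := rep (x + tor N a) with hy
    have h2 : tor N (y - a) = x := by
      have h3 : tor N (y - a) + tor N a = x + tor N a := by
        rw [← tor_add, sub_add_cancel, hy, tor_rep]
      exact add_right_cancel h3
    have h4 : rep x = y - a := by
      rw [← h2]
      refine rep_tor ?_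
      have := sn_sub_le y a
      omega
    rw [h4, sub_add_cancel]

/-- the four directions -/
def dr (i : Fin 4) : Site := ![(1, 0), (-1, 0), (0, 1), (0, -1)] i

theorem sn_dr (i : Fin 4) : sn (dr i) ≤ 1 := by
  fin_cases i <;> simp [dr, sn]

theorem hop_eq_sum (u : Site → ℂ) (y : Site) : hop u y = ∑ i, u (y + dr i) := by
  rw [Fin.sum_univ_four]
  unfold hop dr
  have e1 : y + (![((1 : ℤ), (0 : ℤ)), (-1, 0), (0, 1), (0, -1)] : Fin 4 → Site) 0 = (y.1 + 1, y.2) := by
    ext <;> simp
  have e2 : y + (![((1 : ℤ), (0 : ℤ)), (-1, 0), (0, 1), (0, -1)] : Fin 4 → Site) 1 = (y.1 - 1, y.2) := by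
    ext <;> simp [sub_eq_add_neg]
  have e3 : y + (![((1 : ℤ), (0 : ℤ)), (-1, 0), (0, 1), (0, -1)] : Fin 4 → Site) 2 = (y.1, y.2 + 1) := by
    ext <;> simp
  have e4 : y + (![((1 : ℤ), (0 : ℤ)), (-1, 0), (0, 1), (0, -1)] : Fin 4 → Site) 3 = (y.1, y.2 - 1) := by
    ext <;> simp [sub_eq_add_neg]
  rw [e1, e2, e3, e4]

theorem nbs_eq_image (hN : 3 ≤ N) : nbs N = Finset.univ.image (fun i => tor N (dr i)) := by
  unfold nbs dr tor
  ext x
  simp only [Finset.mem_insert, Finset.mem_singleton, Finset.mem_image, Finset.mem_univ, true_and,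
    Fin.exists_fin_succ, Fin.exists_fin_zero]
  simp [eq_comm]

theorem tor_dr_injective (hN : 3 ≤ N) : Function.Injective (fun i => tor N (dr i)) := by
  intro i j h
  have h1 : rep (tor N (dr i)) = rep (tor N (dr j)) := congrArg rep h
  rw [rep_tor (by have := sn_dr i; omega), rep_tor (by have := sn_dr j; omega)] at h1
  revert h1
  unfold dr
  fin_cases i <;> fin_cases j <;> simp

theorem sum_AT_complex (hN : 3 ≤ N) (x : Tor N) (f : Tor N → ℂ) :
    ∑ y, (AT N x y : ℂ) * f y = ∑ i, f (x + tor N (dr i)) := by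
  classical
  have h1 : ∀ y, (AT N x y : ℂ) * f y = if y - x ∈ nbs N then f y else 0 := by
    intro y; unfold AT; split_ifs <;> simp
  simp only [h1]
  rw [← Equiv.sum_comp (Equiv.addLeft x)]
  simp only [Equiv.coe_addLeft, add_sub_cancel_left]
  rw [← Finset.sum_filter]
  have h2 : (Finset.univ.filter fun a => a ∈ nbs N) = Finset.univ.image (fun i => tor N (dr i)) := by
    rw [← nbs_eq_image hN]
    ext a
    simp
  rw [h2, Finset.sum_image fun i _ j _ h => tor_dr_injective hN h]

/-- potential of the torus -/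
def VT (N : ℕ) (V : Site → ℝ) : Tor N → ℝ := fun x => V (rep x)

/-- the torus Green function -/
noncomputable def Gt (N : ℕ) [NeZero N] (v : Tor N → ℝ) (z : ℂ) : Matrix (Tor N) (Tor N) ℂ :=
  Gr (AT N) fun x => (v x : ℂ) - z

variable {V : Site → ℝ} {z : ℂ}

/-- the far part of the column -/
noncomputable def far (N : ℕ) (u : Site → ℂ) (y : Site) : ℂ := if N / 2 ≤ sn y + 1 then u y else 0

theorem sum_far_le {u : Site → ℂ} (hu : Summable fun y => ‖u y‖ ^ 2) (N : ℕ) (F : Finset Site) :
    ∑ y ∈ F, ‖far N u y‖ ^ 2 ≤ ∑' y, ‖far N u y‖ ^ 2 := by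
  have h1 : Summable fun y => ‖far N u y‖ ^ 2 := by
    refine Summable.of_nonneg_of_le (fun y => by positivity) (fun y => ?_) hu
    unfold far
    split_ifs
    · exact le_rfl
    · simp
  exact h1.sum_le_tsum F fun y _ => by positivity

theorem tendsto_far {u : Site → ℂ} (hu : Summable fun y => ‖u y‖ ^ 2) :
    Tendsto (fun N : ℕ => ∑' y, ‖far N u y‖ ^ 2) atTop (𝓝 0) := by
  have h0 : (0 : ℝ) = ∑' _ : Site, (0 : ℝ) := by simp
  rw [h0]
  refine tendsto_tsum_of_dominated_convergence (bound := fun y => ‖u y‖ ^ 2) hu ?_ ?_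
  · intro y
    refine tendsto_const_nhds.congr' ?_
    filter_upwards [eventually_ge_atTop (2 * (sn y + 2))] with N hN
    unfold far
    rw [if_neg (by omega)]
    simp
  · refine Eventually.of_forall fun N y => ?_
    unfold far
    split_ifs
    · rw [Real.norm_of_nonneg (by positivity)]
    · simp

theorem sq_sum_eight (c d : Fin 4 → ℂ) :
    ‖∑ i, (c i - d i)‖ ^ 2 ≤ 8 * ∑ i, (‖c i‖ ^ 2 + ‖d i‖ ^ 2) := by
  have h1 : ‖∑ i, (c i - d i)‖ ≤ ∑ i, (‖c i‖ + ‖d i‖) :=
    (norm_sum_le _ _).trans (Finset.sum_le_sum fun i _ => norm_sub_le _ _)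
  have h2 := pow_le_pow_left₀ (norm_nonneg _) h1 2
  refine h2.trans ?_
  have h3 : (∑ i : Fin 4, (‖c i‖ + ‖d i‖)) ^ 2 ≤ (4 : ℝ) * ∑ i : Fin 4, (‖c i‖ + ‖d i‖) ^ 2 := by
    have := sq_sum_le_card_mul_sum_sq (s := (Finset.univ : Finset (Fin 4)))
      (f := fun i => ‖c i‖ + ‖d i‖)
    simpa using this
  refine h3.trans ?_
  have h4 : ∑ i : Fin 4, (‖c i‖ + ‖d i‖) ^ 2 ≤ ∑ i : Fin 4, 2 * (‖c i‖ ^ 2 + ‖d i‖ ^ 2) :=
    Finset.sum_le_sum fun i _ => by nlinarith [sq_nonneg (‖c i‖ - ‖d i‖)]
  rw [← Finset.mul_sum] at h4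
  linarith

theorem tor_close (hN : 3 ≤ N) (V : Site → ℝ) (hz : 0 < z.im) {u : L2}
    (hu : IsResolvent V z (dl 0) u) (x : Tor N) :
    ‖Gt N (VT N V) z x 0 - u (rep x)‖ ^ 2 ≤
      1 / z.im ^ 2 * (64 * ∑' y, ‖far N (fun y => u y) y‖ ^ 2) := by
  set T : ℝ := ∑' y, ‖far N (fun y => u y) y‖ ^ 2 with hT
  set v : Tor N → ℂ := fun x => u (rep x) with hv
  set b : Tor N → ℂ := fun x =>
    ∑ i, (far N (fun y => u y) (rep (x + tor N (dr i))) - far N (fun y => u y) (rep x + dr i)) with hb
  have hW : ∀ x : Tor N, (((VT N V x : ℝ) : ℂ) - z).im < 0 := fun x => by simp [hz]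
  have hdet := det_ne_zero (AT_symm N) (W := fun x => ((VT N V x : ℝ) : ℂ) - z) hW
  have h1 : (Kmat (AT N) fun x => ((VT N V x : ℝ) : ℂ) - z).mulVec v = Pi.single 0 1 + b := by
    funext x
    rw [Kmat_mulVec_R, sum_AT_complex hN, Pi.add_apply]
    have h2 := hu (rep x)
    rw [dl_apply, hop_eq_sum] at h2
    have h3 : (Pi.single (0 : Tor N) (1 : ℂ) : Tor N → ℂ) x = if rep x = 0 then 1 else 0 := by
      by_cases h : x = 0
      · subst h
        have : rep (0 : Tor N) = 0 := by simp [rep]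
        rw [if_pos this, Pi.single_eq_same]
      · have h' : rep x ≠ 0 := by
          intro h'
          apply h
          apply rep_injective
          rw [h']
          have : rep (0 : Tor N) = 0 := by simp [rep]
          rw [this]
        rw [if_neg h', Pi.single_eq_of_ne h]
    rw [h3, ← h2]
    have h4 : b x = ∑ i, (v (x + tor N (dr i)) - u (rep x + dr i)) := by
      simp only [hb]
      refine Finset.sum_congr rfl fun i _ => ?_
      rcases rep_add_cases x (sn_dr i) with h | ⟨h, h'⟩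
      · simp only [hv, h, sub_self]
      · unfold far
        rw [if_pos h, if_pos h']
    rw [h4, Finset.sum_sub_distrib]
    simp only [VT, hv]
    ring
  have h2 : (Gt N (VT N V) z).mulVec ((Kmat (AT N) fun x => ((VT N V x : ℝ) : ℂ) - z).mulVec v) = v := by
    rw [Matrix.mulVec_mulVec]
    unfold Gt Gr
    rw [Matrix.nonsing_inv_mul _ (isUnit_iff_ne_zero.2 hdet), Matrix.one_mulVec]
  have h3 := congrFun h2 x
  rw [h1, Matrix.mulVec_add, Pi.add_apply, Matrix.mulVec_single_one] at h3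
  have h4 : Gt N (VT N V) z x 0 - u (rep x) = -((Gt N (VT N V) z).mulVec b x) := by
    have h5 : Gt N (VT N V) z x 0 + (Gt N (VT N V) z).mulVec b x = v x := h3
    have h6 : v x = u (rep x) := rfl
    rw [← h6, ← h5]
    ring
  rw [h4, norm_neg]
  have h6 : (Kmat (AT N) fun x => ((VT N V x : ℝ) : ℂ) - z).mulVec
      ((Gt N (VT N V) z).mulVec b) = b := by
    rw [Matrix.mulVec_mulVec]
    unfold Gt Gr
    rw [Matrix.mul_nonsing_inv _ (isUnit_iff_ne_zero.2 hdet), Matrix.one_mulVec]
  have h7 := solve_le (AT_symm N) hz (fun x => by simp) h6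
  have h8 : ‖(Gt N (VT N V) z).mulVec b x‖ ^ 2 ≤ ∑ y, ‖(Gt N (VT N V) z).mulVec b y‖ ^ 2 :=
    Finset.single_le_sum (f := fun y => ‖(Gt N (VT N V) z).mulVec b y‖ ^ 2)
      (fun y _ => by positivity) (Finset.mem_univ x)
  refine h8.trans (h7.trans (mul_le_mul_of_nonneg_left ?_ (by positivity)))
  have hs := summable_sq u
  have key1 : ∀ i, ∑ x : Tor N, ‖far N (fun y => u y) (rep (x + tor N (dr i)))‖ ^ 2 ≤ T := by
    intro i
    have hinj : Function.Injective (fun x : Tor N => rep (x + tor N (dr i))) := fun a c h =>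
      add_right_cancel (rep_injective h)
    have := sum_far_le hs N (Finset.univ.map ⟨_, hinj⟩)
    rw [Finset.sum_map] at this
    exact this
  have key2 : ∀ i, ∑ x : Tor N, ‖far N (fun y => u y) (rep x + dr i)‖ ^ 2 ≤ T := by
    intro i
    have hinj : Function.Injective (fun x : Tor N => rep x + dr i) := fun a c h =>
      rep_injective (add_right_cancel h)
    have := sum_far_le hs N (Finset.univ.map ⟨_, hinj⟩)
    rw [Finset.sum_map] at this
    exact this
  calc ∑ x, ‖b x‖ ^ 2 ≤ ∑ x : Tor N, 8 * ∑ i, (‖far N (fun y => u y) (rep (x + tor N (dr i)))‖ ^ 2 +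
        ‖far N (fun y => u y) (rep x + dr i)‖ ^ 2) := Finset.sum_le_sum fun x _ => sq_sum_eight _ _
    _ = 8 * ∑ i, (∑ x : Tor N, ‖far N (fun y => u y) (rep (x + tor N (dr i)))‖ ^ 2 +
        ∑ x : Tor N, ‖far N (fun y => u y) (rep x + dr i)‖ ^ 2) := by
          rw [← Finset.mul_sum, Finset.sum_comm]
          simp only [Finset.sum_add_distrib]
    _ ≤ 8 * ∑ _i : Fin 4, (T + T) := by
          refine mul_le_mul_of_nonneg_left (Finset.sum_le_sum fun i _ => ?_) (by norm_num)
          exact add_le_add (key1 i) (key2 i)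
    _ = 64 * T := by
          simp
          ring

end P365L.TL
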